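import Vale.Agent.P114.Defs

open scoped Classical

open MeasureTheory

noncomputable section

namespace Vale.Agent.P114

variable {Λ : Type*} {V : Type*} [AddCommGroup V] [Module ℝ V]

/-- The homothety `x ↦ r i • x + t i` of the vector space `V`. -/
def homMap (r : Λ → ℝ) (t : Λ → V) (i : Λ) : V → V := fun x => r i • x + t i

/-- The composed map `φ_w = φ_{i₁} ∘ ⋯ ∘ φ_{iₙ}` of a word `w = [i₁, …, iₙ]`. -/
def homWord (r : Λ → ℝ) (t : Λ → V) : List Λ → V → V
  | [] => id
  | i :: w => homMap r t i ∘ homWord r t w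

/-- The probability `ℙ(Gₙ = g)`: the total weight of the words `w ∈ Λⁿ` with `φ_w = g`. -/
def homProb [Fintype Λ] (r : Λ → ℝ) (t : Λ → V) (p : Λ → ℝ) (n : ℕ) (g : V → V) : ℝ :=
  ∑ w : Fin n → Λ, if homWord r t (List.ofFn w) = g then ∏ k, p (w k) else 0

/-- Shannon entropy (base 2) of `Gₙ`. -/
def homEntropy [Fintype Λ] (r : Λ → ℝ) (t : Λ → V) (p : Λ → ℝ) (n : ℕ) : ℝ :=
  ∑ g ∈ Finset.univ.image (fun w : Fin n → Λ => homWord r t (List.ofFn w)),
    -(homProb r t p n g * Real.logb 2 (homProb r t p n g))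

/-- Random-walk entropy rate `inf_{n ≥ 1} H(Gₙ)/n` of a system of homotheties of `V`. -/
def homRate [Fintype Λ] (r : Λ → ℝ) (t : Λ → V) (p : Λ → ℝ) : ℝ :=
  ⨅ n : ℕ, homEntropy r t p (n + 1) / (n + 1)

/-- No exact overlaps in `V`: different words of the same length have different composed maps. -/
def HomFree (r : Λ → ℝ) (t : Λ → V) : Prop :=
  ∀ (n : ℕ) (u v : Fin n → Λ), homWord r t (List.ofFn u) = homWord r t (List.ofFn v) → u = v

/-- `μ` is a self-similar measure on `V`: a probability measure with `μ = ∑ pᵢ (φᵢ)_* μ`. -/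
structure IsHomMeasure [Fintype Λ] [MeasurableSpace V] (r : Λ → ℝ) (t : Λ → V) (p : Λ → ℝ)
    (μ : Measure V) : Prop where
  prob : IsProbabilityMeasure μ
  eq : μ = ∑ i, ENNReal.ofReal (p i) • μ.map (homMap r t i)

/-- `K` is the self-similar set in `V`: nonempty, compact and `K = ⋃ φᵢ(K)`. -/
structure IsHomSet [TopologicalSpace V] (r : Λ → ℝ) (t : Λ → V) (K : Set V) : Prop where
  nonempty : K.Nonempty
  compact : IsCompact K
  eq : K = ⋃ i, homMap r t i '' K

end Vale.Agent.P114
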