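import Vale.Agent.P114.H172.HSets

set_option linter.all false

open scoped Classical ENNReal NNReal Topology

open MeasureTheory Set Filter

noncomputable section

namespace Vale.Agent.P114.H172

open Vale.Agent.P114

variable {Λ : Type}

lemma homMap_real (r t : Λ → ℝ) (i : Λ) : homMap r t i = simMap r t i := by
  funext x
  simp [homMap, simMap]

lemma word_iff (r t : Λ → ℝ) (w v : List Λ) :
    homWord r t w = homWord r t v ↔ wordMap r t w = wordMap r t v := by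
  rw [homWord_eq, wordMap_eq]

lemma free_iff (r t : Λ → ℝ) : HomFree r t ↔ NoExactOverlaps r t :=
  ⟨fun h n u v huv => h n u v ((word_iff r t _ _).2 huv),
    fun h n u v huv => h n u v ((word_iff r t _ _).1 huv)⟩

lemma set_iff (r t : Λ → ℝ) (K : Set ℝ) : IsHomSet r t K ↔ IsAttractor r t K := by
  constructor
  · rintro ⟨h1, h2, h3⟩
    refine ⟨h1, h2, ?_⟩
    simpa only [homMap_real] using h3
  · rintro ⟨h1, h2, h3⟩
    refine ⟨h1, h2, ?_⟩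
    simpa only [homMap_real] using h3

/-- Q1 -/
theorem q1 [Fintype Λ] [Nonempty Λ] (r t p : Λ → ℝ) (hr0 : ∀ i, r i ≠ 0) (hr1 : ∀ i, |r i| < 1)
    (hp : ∀ i, 0 < p i) (hp1 : ∑ i, p i = 1) (μ : Measure ℝ) (hμ : IsHomMeasure r t p μ) :
    lowerDimH μ = ENNReal.ofReal (min 1 (homRate r t p / lyap r p)) := by
  have hu : NoNew r t (ContinuousLinearMap.id ℝ ℝ) := by
    intro n w v h
    exact (word_iff r t _ _).2 h
  have h := (measure_part r t hr0 hr1 _ hu p hp hp1 μ hμ).1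
  have e : μ.map (ContinuousLinearMap.id ℝ ℝ) = μ := Measure.map_id
  rwa [e] at h

theorem main [Fintype Λ] [Nonempty Λ] (r : Λ → ℝ) (hr0 : ∀ i, r i ≠ 0) (hr1 : ∀ i, |r i| < 1)
    (V : Type) [NormedAddCommGroup V] [NormedSpace ℝ V] [FiniteDimensional ℝ V] [Nontrivial V]
    [MeasurableSpace V] [BorelSpace V] (t : Λ → V) :
    (∃ 𝓗 : Set (Submodule ℝ (V →L[ℝ] ℝ)), 𝓗.Countable ∧ (∀ W ∈ 𝓗, W ≠ ⊤) ∧
      ∀ u : V →L[ℝ] ℝ, (∀ W ∈ 𝓗, u ∉ W) →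
        (∀ p : Λ → ℝ, (∀ i, 0 < p i) → ∑ i, p i = 1 → ∀ μ : Measure V, IsHomMeasure r t p μ →
          lowerDimH (μ.map u) = ENNReal.ofReal (min 1 (homRate r t p / lyap r p))) ∧
        (HomFree r t → ∀ K : Set V, IsHomSet r t K → ∀ s : ℝ, 0 ≤ s → ∑ i, |r i| ^ s = 1 →
          dimH (u '' K) = ENNReal.ofReal (min 1 s))) ∧
    (∀ K : Set V, IsHomSet r t K → ∀ s : ℝ, 0 ≤ s → s ≤ 1 → ∑ i, |r i| ^ s = 1 →
      (dimH K = ENNReal.ofReal s ↔ HomFree r t) ∧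
      ∀ u : V →L[ℝ] ℝ, dimH (u '' K) = ENNReal.ofReal s ↔ HomFree r (fun i => u (t i))) := by
  refine ⟨⟨bad r t, bad_countable r t, bad_ne_top r t, fun u hu => ⟨fun p hp hp1 μ hμ => ?_,
    fun hf K hK s hs hs1 => ?_⟩⟩, fun K hK s hs hs' hs1 => ⟨?_, fun u => ?_⟩⟩
  · exact (measure_part r t hr0 hr1 u (noNew_of_not_bad r t u hu) p hp hp1 μ hμ).1
  · exact set_part r t hr0 hr1 u (noNew_of_not_bad r t u hu) hf K hK s hs hs1
  · exact hom_iff r t hr0 hr1 K hK s hs hs' hs1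
  · rw [free_iff]
    exact iff_part r t hr0 hr1 u K hK s hs hs' hs1

theorem sums {Λ₁ Λ₂ : Type} [Fintype Λ₁] [Nonempty Λ₁] [Fintype Λ₂] [Nonempty Λ₂] (ρ : ℝ)
    (h0 : ρ ≠ 0) (h1 : |ρ| < 1) (a : Λ₁ → ℝ) (b : Λ₂ → ℝ)
    (ha : HomFree (fun _ => ρ) a) (hb : HomFree (fun _ => ρ) b)
    (K₁ K₂ : Set ℝ) (h₁ : IsHomSet (fun _ => ρ) a K₁) (h₂ : IsHomSet (fun _ => ρ) b K₂) :
    {c : ℝ | dimH ((fun z : ℝ × ℝ => z.1 + c * z.2) '' (K₁ ×ˢ K₂)) ≠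
      min 1 (dimH K₁ + dimH K₂)}.Countable :=
  sum_part ρ h0 h1 a b ((free_iff _ _).1 ha) ((free_iff _ _).1 hb) K₁ K₂ ((set_iff _ _ _).1 h₁)
    ((set_iff _ _ _).1 h₂)

end Vale.Agent.P114.H172
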