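import Vale.Agent.P114.H172.Main

set_option linter.all false

open scoped Classical ENNReal NNReal Topology

open MeasureTheory Set Filter

noncomputable section

namespace Vale.Agent.P114.H172

open Vale.Agent.P114

variable {Λ : Type} {V : Type} [NormedAddCommGroup V] [NormedSpace ℝ V]

lemma slope_ofFn (r : Λ → ℝ) {n : ℕ} (w : Fin n → Λ) : slope r (List.ofFn w) = ∏ k, r (w k) := by
  have h : ∀ l : List Λ, slope r l = (l.map r).prod := by
    intro l
    induction l with
    | nil => simp [slope]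
    | cons i l ih => simp [slope, ih]
  rw [h, List.map_ofFn, List.prod_ofFn]
  rfl

/-- the pieces cover -/
lemma hom_iter (r : Λ → ℝ) (t : Λ → V) (K : Set V) (hK : IsHomSet r t K) (n : ℕ) :
    K ⊆ ⋃ w : Fin n → Λ, homWord r t (List.ofFn w) '' K := by
  induction n with
  | zero =>
    intro x hx
    exact mem_iUnion.2 ⟨Fin.elim0, x, hx, by simp [homWord]⟩
  | succ n ih =>
    intro x hx
    have hx' := hx
    rw [hK.eq] at hx'
    obtain ⟨i, y, hy, rfl⟩ := mem_iUnion.1 hx'
    obtain ⟨w, z, hz, rfl⟩ := mem_iUnion.1 (ih hy)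
    refine mem_iUnion.2 ⟨Fin.cons i w, z, hz, ?_⟩
    rw [List.ofFn_cons]
    rfl

lemma hom_iter_ge (r : Λ → ℝ) (t : Λ → V) (K : Set V) (hK : IsHomSet r t K) (w : List Λ) :
    homWord r t w '' K ⊆ K := by
  induction w with
  | nil =>
    rintro _ ⟨x, hx, rfl⟩
    exact hx
  | cons i w ih =>
    rintro _ ⟨x, hx, rfl⟩
    rw [hK.eq]
    exact mem_iUnion.2 ⟨i, _, ih ⟨x, hx, rfl⟩, rfl⟩

lemma sum_slope (r : Λ → ℝ) [Fintype Λ] (s : ℝ) (hs1 : ∑ i, |r i| ^ s ≤ 1) (n : ℕ) :
    ∑ w : Fin n → Λ, |slope r (List.ofFn w)| ^ s ≤ 1 := by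
  have h1 : ∀ w : Fin n → Λ, |slope r (List.ofFn w)| ^ s = ∏ k, |r (w k)| ^ s := by
    intro w
    rw [slope_ofFn, Finset.abs_prod, Real.finsetProd_rpow _ _ (fun _ _ => abs_nonneg _)]
  simp only [h1]
  have := Finset.prod_univ_sum (fun _ : Fin n => (Finset.univ : Finset Λ))
    (fun _ a => |r a| ^ s)
  simp only [Finset.prod_const, Fintype.piFinset_univ, Finset.card_univ, Fintype.card_fin] at this
  rw [← this]
  exact pow_le_one₀ (Finset.sum_nonneg fun i _ => Real.rpow_nonneg (abs_nonneg _) _) hs1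

lemma exists_ratio [Fintype Λ] [Nonempty Λ] (r : Λ → ℝ) (hr1 : ∀ i, |r i| < 1) :
    ∃ ρ : ℝ, 0 ≤ ρ ∧ ρ < 1 ∧ ∀ (n : ℕ) (w : Fin n → Λ), |slope r (List.ofFn w)| ≤ ρ ^ n := by
  obtain ⟨i0, hi0⟩ := Finite.exists_max fun i => |r i|
  refine ⟨|r i0|, abs_nonneg _, hr1 i0, fun n w => ?_⟩
  rw [slope_ofFn, Finset.abs_prod]
  calc ∏ k, |r (w k)| ≤ ∏ _k : Fin n, |r i0| :=
        Finset.prod_le_prod (fun _ _ => abs_nonneg _) fun k _ => hi0 _
    _ = |r i0| ^ n := by rw [Finset.prod_const, Finset.card_univ, Fintype.card_fin]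

/-- upper bound for the dimension of a homothetic self-similar set -/
theorem dimH_hom_le [Fintype Λ] [Nonempty Λ] (r : Λ → ℝ) (t : Λ → V) (hr1 : ∀ i, |r i| < 1)
    (K : Set V) (hK : IsHomSet r t K) (s : ℝ) (hs : 0 ≤ s) (hs1 : ∑ i, |r i| ^ s ≤ 1) :
    dimH K ≤ ENNReal.ofReal s := by
  let _ : MeasurableSpace V := borel V
  have : BorelSpace V := ⟨rfl⟩
  obtain ⟨ρ, h0, h1, hsl⟩ := exists_ratio r hr1
  have hbdd := hK.compact.isBounded
  set d := Metric.diam K with hd
  have hd0 : 0 ≤ d := Metric.diam_nonneg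
  have hdiam : ∀ (n : ℕ) (w : Fin n → Λ),
      Metric.ediam (homWord r t (List.ofFn w) '' K) ≤
        ENNReal.ofReal (|slope r (List.ofFn w)| * d) := by
    intro n w
    refine Metric.ediam_le ?_
    rintro _ ⟨x, hx, rfl⟩ _ ⟨y, hy, rfl⟩
    rw [edist_dist, homWord_apply, homWord_apply, dist_add_right, dist_smul₀, Real.norm_eq_abs]
    apply ENNReal.ofReal_le_ofReal
    exact mul_le_mul_of_nonneg_left (Metric.dist_le_diam_of_mem hbdd hx hy) (abs_nonneg _)
  have hmain : (μH[s] : Measure V) K ≤ liminf (fun n : ℕ => ∑ w : Fin n → Λ,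
      Metric.ediam (homWord r t (List.ofFn w) '' K) ^ s) atTop := by
    refine Measure.hausdorffMeasure_le_liminf_sum s K
      (fun n : ℕ => ENNReal.ofReal (ρ ^ n * d)) ?_
      (fun n (w : Fin n → Λ) => homWord r t (List.ofFn w) '' K) ?_ ?_
    · have h2 : Tendsto (fun n : ℕ => ρ ^ n * d) atTop (𝓝 0) := by
        simpa using (tendsto_pow_atTop_nhds_zero_of_lt_one h0 h1).mul_const d
      have := ENNReal.tendsto_ofReal h2
      simpa only [ENNReal.ofReal_zero] using this
    · refine Eventually.of_forall fun n w => (hdiam n w).trans ?_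
      apply ENNReal.ofReal_le_ofReal
      exact mul_le_mul_of_nonneg_right (hsl n w) hd0
    · exact Eventually.of_forall fun n => hom_iter r t K hK n
  have hbound : ∀ n : ℕ, ∑ w : Fin n → Λ,
      Metric.ediam (homWord r t (List.ofFn w) '' K) ^ s ≤ ENNReal.ofReal (d ^ s) := by
    intro n
    calc ∑ w : Fin n → Λ, Metric.ediam (homWord r t (List.ofFn w) '' K) ^ s
        ≤ ∑ w : Fin n → Λ, ENNReal.ofReal (|slope r (List.ofFn w)| ^ s * d ^ s) := by
          refine Finset.sum_le_sum fun w _ => ?_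
          refine (ENNReal.rpow_le_rpow (hdiam n w) hs).trans (le_of_eq ?_)
          rw [ENNReal.ofReal_rpow_of_nonneg (mul_nonneg (abs_nonneg _) hd0) hs,
            Real.mul_rpow (abs_nonneg _) hd0]
      _ = ENNReal.ofReal (∑ w : Fin n → Λ, |slope r (List.ofFn w)| ^ s * d ^ s) := by
          rw [ENNReal.ofReal_sum_of_nonneg]
          intro w _
          exact mul_nonneg (Real.rpow_nonneg (abs_nonneg _) _) (Real.rpow_nonneg hd0 _)
      _ ≤ ENNReal.ofReal (d ^ s) := by
          apply ENNReal.ofReal_le_ofReal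
          rw [← Finset.sum_mul]
          exact mul_le_of_le_one_left (Real.rpow_nonneg hd0 _) (sum_slope r s hs1 n)
  have hfin : (μH[s] : Measure V) K ≠ ∞ := by
    refine ne_top_of_le_ne_top ENNReal.ofReal_ne_top (b := ENNReal.ofReal (d ^ s))
      (hmain.trans ?_)
    refine (liminf_le_liminf (Eventually.of_forall hbound)).trans ?_
    simp only [liminf_const, Std.le_refl]
  have := dimH_le_of_hausdorffMeasure_ne_top (s := K) (d := ⟨s, hs⟩) hfin
  refine this.trans ?_
  rw [ENNReal.ofReal, Real.toNNReal_of_nonneg hs]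
  exact le_rfl

/-- With exact overlaps the dimension of the homothetic self-similar set drops. -/
theorem dimH_hom_lt [Fintype Λ] [Nonempty Λ] (r : Λ → ℝ) (t : Λ → V) (hr0 : ∀ i, r i ≠ 0)
    (hr1 : ∀ i, |r i| < 1) (hno : ¬ HomFree r t) (K : Set V) (hK : IsHomSet r t K) (s : ℝ)
    (hs1 : ∑ i, |r i| ^ s = 1) : dimH K < ENNReal.ofReal s := by
  have hpos : ∀ i, 0 < |r i| := fun i => abs_pos.2 (hr0 i)
  unfold HomFree at hno
  push Not at hno
  obtain ⟨n, u, v, huv, hne⟩ := hno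
  have hn : n ≠ 0 := by
    rintro rfl
    exact hne (Subsingleton.elim _ _)
  obtain ⟨ρ, h0, h1, hsl⟩ := exists_ratio r hr1
  have hslpos : ∀ w : Fin n → Λ, 0 < |slope r (List.ofFn w)| := by
    intro w
    rw [slope_ofFn, Finset.abs_prod]
    exact Finset.prod_pos fun i _ => hpos _
  have hsllt : ∀ w : Fin n → Λ, |slope r (List.ofFn w)| < 1 := fun w =>
    (hsl n w).trans_lt (pow_lt_one₀ h0 h1 hn)
  have hAne : Nonempty {w : Fin n → Λ // w ≠ u} := ⟨⟨v, fun h => hne h.symm⟩⟩
  have hmap : ∀ w : Fin n → Λ, (fun x => slope r (List.ofFn w) • x + trans r t (List.ofFn w)) =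
      homWord r t (List.ofFn w) := fun w => by
    funext x
    rw [homWord_apply]
  have hKA : IsHomSet (fun w : {w : Fin n → Λ // w ≠ u} => slope r (List.ofFn w.1))
      (fun w => trans r t (List.ofFn w.1)) K := by
    refine ⟨hK.nonempty, hK.compact, Subset.antisymm ?_ ?_⟩
    · intro x hx
      obtain ⟨w, y, hy, hyx⟩ := mem_iUnion.1 (hom_iter r t K hK n hx)
      by_cases hw : w = u
      · refine mem_iUnion.2 ⟨⟨v, fun h => hne h.symm⟩, y, hy, ?_⟩
        rw [← hyx, hw, huv]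
        exact (homWord_apply r t _ _).symm
      · refine mem_iUnion.2 ⟨⟨w, hw⟩, y, hy, ?_⟩
        rw [← hyx]
        exact (homWord_apply r t _ _).symm
    · refine iUnion_subset fun w => ?_
      have := hom_iter_ge r t K hK (List.ofFn w.1)
      rwa [← hmap w.1] at this
  have hsum : ∑ w : {w : Fin n → Λ // w ≠ u}, |slope r (List.ofFn w.1)| ^ s < 1 := by
    have h1 := sum_slope r s hs1.le n
    have h2 : ∑ w : Fin n → Λ, |slope r (List.ofFn w)| ^ s
        = |slope r (List.ofFn u)| ^ s +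
          ∑ w : {w : Fin n → Λ // w ≠ u}, |slope r (List.ofFn w.1)| ^ s := by
      rw [← Finset.add_sum_erase Finset.univ _ (Finset.mem_univ u)]
      congr 1
      refine Finset.sum_subtype _ (fun w => ?_) _
      simp
    have h3 : 0 < |slope r (List.ofFn u)| ^ s := Real.rpow_pos_of_pos (hslpos u) _
    linarith
  have hs0 : 0 < s := by
    by_contra hcon
    push Not at hcon
    have h1 : (1 : ℝ) ≤ |slope r (List.ofFn v)| ^ s := Real.one_le_rpow_of_pos_of_le_one_of_nonpos
      (hslpos v) (hsllt v).le hcon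
    have h2 := Finset.single_le_sum
      (f := fun w : {w : Fin n → Λ // w ≠ u} => |slope r (List.ofFn w.1)| ^ s)
      (fun w _ => Real.rpow_nonneg (abs_nonneg _) _)
      (Finset.mem_univ (⟨v, fun h => hne h.symm⟩ : {w : Fin n → Λ // w ≠ u}))
    simp only at h2
    linarith
  have hcont : Continuous fun x : ℝ =>
      ∑ w : {w : Fin n → Λ // w ≠ u}, |slope r (List.ofFn w.1)| ^ x := by
    refine continuous_finsetSum _ fun w _ => ?_
    exact Real.continuous_const_rpow (hslpos w.1).ne'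
  have hev : ∀ᶠ x in 𝓝 s, ∑ w : {w : Fin n → Λ // w ≠ u}, |slope r (List.ofFn w.1)| ^ x < 1 :=
    hcont.continuousAt.eventually_lt_const hsum
  obtain ⟨ε, hε, hball⟩ := Metric.eventually_nhds_iff.1 hev
  obtain ⟨s', hs'⟩ : ∃ s' : ℝ, s' = s - min (ε / 2) (s / 2) := ⟨_, rfl⟩
  have hm0 : 0 < min (ε / 2) (s / 2) := lt_min (by linarith) (by linarith)
  have hm1 : min (ε / 2) (s / 2) ≤ ε / 2 := min_le_left _ _
  have hm2 : min (ε / 2) (s / 2) ≤ s / 2 := min_le_right _ _
  have hs'0 : 0 ≤ s' := by rw [hs']; linarith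
  have hs's : s' < s := by rw [hs']; linarith
  have h4 := hball (y := s') (by
    rw [Real.dist_eq, hs', abs_lt]
    constructor <;> linarith)
  have h5 := dimH_hom_le (fun w : {w : Fin n → Λ // w ≠ u} => slope r (List.ofFn w.1))
    (fun w => trans r t (List.ofFn w.1)) (fun w => hsllt w.1) K hKA s' hs'0 h4.le
  refine lt_of_le_of_lt h5 ?_
  rw [ENNReal.ofReal_lt_ofReal_iff hs0]
  exact hs's

/-- a proper submodule of the dual is a null set, so a functional avoiding all bad ones exists -/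
lemma exists_not_bad [Fintype Λ] [FiniteDimensional ℝ V] (r : Λ → ℝ) (t : Λ → V) :
    ∃ u : V →L[ℝ] ℝ, ∀ W ∈ bad r t, u ∉ W := by
  by_contra hcon
  push Not at hcon
  let _ : MeasurableSpace (V →L[ℝ] ℝ) := borel _
  have : BorelSpace (V →L[ℝ] ℝ) := ⟨rfl⟩
  have hfd : FiniteDimensional ℝ (V →L[ℝ] ℝ) := inferInstance
  set μ : Measure (V →L[ℝ] ℝ) := Measure.addHaar with hμ
  have h1 : μ (⋃ W ∈ bad r t, (W : Set (V →L[ℝ] ℝ))) = 0 := by
    rw [measure_biUnion_null_iff (bad_countable r t)]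
    intro W hW
    exact Measure.addHaar_submodule μ W (bad_ne_top r t W hW)
  have h2 : (⋃ W ∈ bad r t, (W : Set (V →L[ℝ] ℝ))) = univ := by
    refine eq_univ_of_forall fun u => ?_
    obtain ⟨W, hW, hu⟩ := hcon u
    exact mem_biUnion hW hu
  rw [h2] at h1
  exact (NeZero.ne (μ univ)) h1

/-- the exact overlaps conjecture for homothetic sets of similarity dimension at most one -/
theorem hom_iff [Fintype Λ] [Nonempty Λ] [Nontrivial V] [FiniteDimensional ℝ V]
    (r : Λ → ℝ) (t : Λ → V) (hr0 : ∀ i, r i ≠ 0) (hr1 : ∀ i, |r i| < 1) (K : Set V)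
    (hK : IsHomSet r t K) (s : ℝ) (hs : 0 ≤ s) (hs' : s ≤ 1) (hs1 : ∑ i, |r i| ^ s = 1) :
    dimH K = ENNReal.ofReal s ↔ HomFree r t := by
  refine ⟨fun h => ?_, fun hf => ?_⟩
  · by_contra hno
    exact absurd h (dimH_hom_lt r t hr0 hr1 hno K hK s hs1).ne
  · refine le_antisymm (dimH_hom_le r t hr1 K hK s hs hs1.le) ?_
    obtain ⟨u, hu⟩ := exists_not_bad r t
    have h1 := set_part r t hr0 hr1 u (noNew_of_not_bad r t u hu) hf K hK s hs hs1
    rw [min_eq_right hs'] at h1
    rw [← h1]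
    exact u.lipschitz.dimH_image_le K

end Vale.Agent.P114.H172
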