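import Vale.Agent.P114.H172.Proj

set_option linter.all false

open scoped Classical ENNReal

open MeasureTheory Set

noncomputable section

namespace Vale.Agent.P114.H172

open Vale.Agent.P114

section
variable {Λ : Type} {V : Type} [NormedAddCommGroup V] [NormedSpace ℝ V]

lemma noExactOverlaps_of [Nontrivial V] (r : Λ → ℝ) (t : Λ → V) (u : V →L[ℝ] ℝ)
    (hu : NoNew r t u) (hf : HomFree r t) : NoExactOverlaps r (fun i => u (t i)) :=
  fun n w v h => hf n w v (hu n w v h)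

theorem measure_part [Fintype Λ] [Nonempty Λ] [Nontrivial V] [MeasurableSpace V] [BorelSpace V]
    (r : Λ → ℝ) (t : Λ → V) (hr0 : ∀ i, r i ≠ 0) (hr1 : ∀ i, |r i| < 1) (u : V →L[ℝ] ℝ)
    (hu : NoNew r t u) (p : Λ → ℝ) (hp : ∀ i, 0 < p i) (hp1 : ∑ i, p i = 1) (μ : Measure V)
    (hμ : IsHomMeasure r t p μ) :
    lowerDimH (μ.map u) = ENNReal.ofReal (min 1 (homRate r t p / lyap r p)) ∧
      ∀ᵐ y ∂(μ.map u), HasLocalDim (μ.map u) y (min 1 (homRate r t p / lyap r p)) := by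
  have hs := map_isSelfSimilar r t p μ hμ u
  have h1 := LD.formula r (fun i => u (t i)) p hr0 hr1 hp hp1 _ hs
  have h2 := LD.exact_dim r (fun i => u (t i)) p hr0 hr1 hp hp1 _ hs
  rw [rate_eq r t p u hu] at h1 h2
  exact ⟨h1, h2⟩

theorem set_part [Fintype Λ] [Nonempty Λ] [Nontrivial V]
    (r : Λ → ℝ) (t : Λ → V) (hr0 : ∀ i, r i ≠ 0) (hr1 : ∀ i, |r i| < 1) (u : V →L[ℝ] ℝ)
    (hu : NoNew r t u) (hf : HomFree r t) (K : Set V) (hK : IsHomSet r t K) (s : ℝ) (hs : 0 ≤ s)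
    (hs1 : ∑ i, |r i| ^ s = 1) : dimH (u '' K) = ENNReal.ofReal (min 1 s) :=
  LD.dimH_attractor r _ hr0 hr1 (noExactOverlaps_of r t u hu hf) _ (image_isAttractor r t K hK u)
    s hs hs1

theorem iff_part [Fintype Λ] [Nonempty Λ]
    (r : Λ → ℝ) (t : Λ → V) (hr0 : ∀ i, r i ≠ 0) (hr1 : ∀ i, |r i| < 1) (u : V →L[ℝ] ℝ)
    (K : Set V) (hK : IsHomSet r t K) (s : ℝ) (hs : 0 ≤ s) (hs' : s ≤ 1)
    (hs1 : ∑ i, |r i| ^ s = 1) :
    dimH (u '' K) = ENNReal.ofReal s ↔ NoExactOverlaps r (fun i => u (t i)) := by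
  refine ⟨fun h => ?_, fun hno => ?_⟩
  · by_contra hno
    exact absurd h (LD.dimH_attractor_lt r _ hr0 hr1 hno _ (image_isAttractor r t K hK u) s hs1).ne
  · rw [LD.dimH_attractor r _ hr0 hr1 hno _ (image_isAttractor r t K hK u) s hs hs1,
      min_eq_right hs']

end

section sums

variable {Λ₁ Λ₂ : Type}

/-- the product system -/
def prodT (a : Λ₁ → ℝ) (b : Λ₂ → ℝ) : Λ₁ × Λ₂ → ℝ × ℝ := fun i => (a i.1, b i.2)

lemma prod_isHomSet (ρ : ℝ) (a : Λ₁ → ℝ) (b : Λ₂ → ℝ) (K₁ K₂ : Set ℝ)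
    (h₁ : IsAttractor (fun _ => ρ) a K₁) (h₂ : IsAttractor (fun _ => ρ) b K₂) :
    IsHomSet (fun _ : Λ₁ × Λ₂ => ρ) (prodT a b) (K₁ ×ˢ K₂) := by
  refine ⟨h₁.nonempty.prod h₂.nonempty, h₁.compact.prod h₂.compact, ?_⟩
  ext ⟨x, y⟩
  constructor
  · rintro ⟨hx, hy⟩
    have hx1 : x ∈ K₁ := hx
    have hy1 : y ∈ K₂ := hy
    rw [h₁.eq] at hx1
    rw [h₂.eq] at hy1
    obtain ⟨i, x', hx', rfl⟩ := mem_iUnion.1 hx1
    obtain ⟨j, y', hy', rfl⟩ := mem_iUnion.1 hy1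
    exact mem_iUnion.2 ⟨(i, j), (x', y'), ⟨hx', hy'⟩, by
      simp [homMap, prodT, simMap]⟩
  · intro h
    obtain ⟨⟨i, j⟩, ⟨x', y'⟩, ⟨hx', hy'⟩, hxy⟩ := mem_iUnion.1 h
    simp only [homMap, prodT, Prod.smul_mk, smul_eq_mul, Prod.mk_add_mk, Prod.mk.injEq] at hxy
    refine ⟨?_, ?_⟩
    · show x ∈ K₁
      rw [h₁.eq]
      exact mem_iUnion.2 ⟨i, x', hx', hxy.1⟩
    · show y ∈ K₂
      rw [h₂.eq]
      exact mem_iUnion.2 ⟨j, y', hy', hxy.2⟩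

lemma trans_prod (ρ : ℝ) (a : Λ₁ → ℝ) (b : Λ₂ → ℝ) (w : List (Λ₁ × Λ₂)) :
    trans (fun _ : Λ₁ × Λ₂ => ρ) (prodT a b) w =
      (trans (fun _ => ρ) a (w.map Prod.fst), trans (fun _ => ρ) b (w.map Prod.snd)) := by
  induction w with
  | nil => rfl
  | cons i w ih =>
    change ρ • trans (fun _ : Λ₁ × Λ₂ => ρ) (prodT a b) w + prodT a b i = _
    rw [ih]
    rfl

lemma slope_const {Λ : Type} (ρ : ℝ) (w : List Λ) : slope (fun _ => ρ) w = ρ ^ w.length := by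
  induction w with
  | nil => rfl
  | cons i w ih =>
    change ρ * slope (fun _ => ρ) w = _
    rw [ih, List.length_cons, pow_succ, mul_comm]

lemma prod_homFree (ρ : ℝ) (a : Λ₁ → ℝ) (b : Λ₂ → ℝ)
    (h₁ : NoExactOverlaps (fun _ => ρ) a) (h₂ : NoExactOverlaps (fun _ => ρ) b) :
    HomFree (fun _ : Λ₁ × Λ₂ => ρ) (prodT a b) := by
  intro n w v h
  have h3 := homWord_eq_iff _ _ _ _ h
  rw [trans_prod, trans_prod, Prod.mk.injEq, List.map_ofFn, List.map_ofFn, List.map_ofFn,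
    List.map_ofFn] at h3
  have e1 := h₁ n (fun i => (w i).1) (fun i => (v i).1) ((wordMap_eq _ _ _ _).2
    ⟨by rw [slope_const, slope_const, List.length_ofFn, List.length_ofFn], h3.1⟩)
  have e2 := h₂ n (fun i => (w i).2) (fun i => (v i).2) ((wordMap_eq _ _ _ _).2
    ⟨by rw [slope_const, slope_const, List.length_ofFn, List.length_ofFn], h3.2⟩)
  funext i
  exact Prod.ext (congrFun e1 i) (congrFun e2 i)

/-- the functional `(x, y) ↦ x + c y` -/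
def uc (c : ℝ) : ℝ × ℝ →L[ℝ] ℝ :=
  ContinuousLinearMap.fst ℝ ℝ ℝ + c • ContinuousLinearMap.snd ℝ ℝ ℝ

lemma uc_apply (c : ℝ) (z : ℝ × ℝ) : uc c z = z.1 + c * z.2 := by
  simp [uc]

lemma uc_subsingleton (W : Submodule ℝ (ℝ × ℝ →L[ℝ] ℝ)) (hW : W ≠ ⊤) :
    {c : ℝ | uc c ∈ W}.Subsingleton := by
  intro c hc d hd
  by_contra hne
  apply hW
  have hcd : c - d ≠ 0 := sub_ne_zero.2 hne
  have hs : ContinuousLinearMap.snd ℝ ℝ ℝ ∈ W := by
    have h1 : (c - d)⁻¹ • (uc c - uc d) ∈ W := W.smul_mem _ (W.sub_mem hc hd)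
    have h2 : (c - d)⁻¹ • (uc c - uc d) = ContinuousLinearMap.snd ℝ ℝ ℝ := by
      ext <;> simp [uc] <;> field_simp
    rwa [h2] at h1
  have hf : ContinuousLinearMap.fst ℝ ℝ ℝ ∈ W := by
    have h1 : uc c - c • ContinuousLinearMap.snd ℝ ℝ ℝ ∈ W := W.sub_mem hc (W.smul_mem _ hs)
    have h2 : uc c - c • ContinuousLinearMap.snd ℝ ℝ ℝ = ContinuousLinearMap.fst ℝ ℝ ℝ := by
      simp [uc]
    rwa [h2] at h1
  rw [eq_top_iff]
  intro f _
  have h3 : f = f (1, 0) • ContinuousLinearMap.fst ℝ ℝ ℝ + f (0, 1) • ContinuousLinearMap.snd ℝ ℝ ℝ := by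
    ext <;> simp
  rw [h3]
  exact W.add_mem (W.smul_mem _ hf) (W.smul_mem _ hs)

lemma simDim (ρ : ℝ) (h0 : ρ ≠ 0) (h1 : |ρ| < 1) (Λ : Type) [Fintype Λ] [Nonempty Λ] :
    0 ≤ Real.log (Fintype.card Λ) / Real.log |ρ|⁻¹ ∧
      ∑ _i : Λ, |ρ| ^ (Real.log (Fintype.card Λ) / Real.log |ρ|⁻¹) = 1 := by
  have hρ : 0 < |ρ| := abs_pos.2 h0
  have hlog : Real.log |ρ| < 0 := Real.log_neg hρ h1
  have hN : (1 : ℝ) ≤ Fintype.card Λ := by exact_mod_cast Fintype.card_pos (α := Λ)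
  refine ⟨div_nonneg (Real.log_nonneg hN) (by rw [Real.log_inv]; linarith), ?_⟩
  rw [Finset.sum_const, Finset.card_univ, nsmul_eq_mul, Real.rpow_def_of_pos hρ, Real.log_inv]
  have e : Real.log |ρ| * (Real.log (Fintype.card Λ) / -Real.log |ρ|) =
      -Real.log (Fintype.card Λ) := by
    have : Real.log |ρ| ≠ 0 := hlog.ne
    rw [div_neg, mul_neg, mul_div_cancel₀ _ this]
  rw [e, Real.exp_neg, Real.exp_log (by linarith)]
  exact mul_inv_cancel₀ (by linarith)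

theorem sum_part [Fintype Λ₁] [Nonempty Λ₁] [Fintype Λ₂] [Nonempty Λ₂] (ρ : ℝ) (h0 : ρ ≠ 0)
    (h1 : |ρ| < 1) (a : Λ₁ → ℝ) (b : Λ₂ → ℝ)
    (ha : NoExactOverlaps (fun _ => ρ) a) (hb : NoExactOverlaps (fun _ => ρ) b)
    (K₁ K₂ : Set ℝ) (h₁ : IsAttractor (fun _ => ρ) a K₁) (h₂ : IsAttractor (fun _ => ρ) b K₂) :
    {c : ℝ | dimH ((fun z : ℝ × ℝ => z.1 + c * z.2) '' (K₁ ×ˢ K₂)) ≠
      min 1 (dimH K₁ + dimH K₂)}.Countable := by
  have hcount : (⋃ W ∈ bad (fun _ : Λ₁ × Λ₂ => ρ) (prodT a b), {c : ℝ | uc c ∈ W}).Countable :=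
    (bad_countable _ _).biUnion fun W hW => (uc_subsingleton W (bad_ne_top _ _ W hW)).countable
  refine hcount.mono fun c hc => ?_
  by_contra hcon
  apply hc
  have hnb : ∀ W ∈ bad (fun _ : Λ₁ × Λ₂ => ρ) (prodT a b), uc c ∉ W := by
    intro W hW hmem
    exact hcon (mem_biUnion hW hmem)
  have hno := noNew_of_not_bad _ _ _ hnb
  obtain ⟨ha0, ha1⟩ := simDim ρ h0 h1 Λ₁
  obtain ⟨hb0, hb1⟩ := simDim ρ h0 h1 Λ₂
  obtain ⟨hp0, hp1⟩ := simDim ρ h0 h1 (Λ₁ × Λ₂)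
  have e1 := LD.dimH_attractor _ a (fun _ => h0) (fun _ => h1) ha K₁ h₁ _ ha0 ha1
  have e2 := LD.dimH_attractor _ b (fun _ => h0) (fun _ => h1) hb K₂ h₂ _ hb0 hb1
  have e3 := set_part _ _ (fun _ => h0) (fun _ => h1) (uc c) hno (prod_homFree ρ a b ha hb) _
    (prod_isHomSet ρ a b K₁ K₂ h₁ h₂) _ hp0 hp1
  have e4 : (fun z : ℝ × ℝ => z.1 + c * z.2) = uc c := by
    funext z
    rw [uc_apply]
  rw [e4, e3, e1, e2]
  have e5 : Real.log (Fintype.card (Λ₁ × Λ₂)) / Real.log |ρ|⁻¹ =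
      Real.log (Fintype.card Λ₁) / Real.log |ρ|⁻¹ + Real.log (Fintype.card Λ₂) / Real.log |ρ|⁻¹ := by
    rw [Fintype.card_prod, Nat.cast_mul, Real.log_mul, add_div]
    · exact_mod_cast Fintype.card_ne_zero
    · exact_mod_cast Fintype.card_ne_zero
  rw [e5]
  set s := Real.log (Fintype.card Λ₁) / Real.log |ρ|⁻¹
  set s' := Real.log (Fintype.card Λ₂) / Real.log |ρ|⁻¹
  rw [← ENNReal.ofReal_add (le_min zero_le_one ha0) (le_min zero_le_one hb0),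
    ← ENNReal.ofReal_one, ← ENNReal.ofReal_min]
  congr 1
  rcases le_total 1 s with h | h
  · rw [min_eq_left h, min_eq_left, min_eq_left]
    · have := le_min zero_le_one hb0
      linarith
    · linarith
  · rcases le_total 1 s' with h' | h'
    · rw [min_eq_left h', min_eq_left, min_eq_left]
      · have := le_min zero_le_one ha0
        linarith
      · linarith
    · rw [min_eq_right h, min_eq_right h']

end sums

end Vale.Agent.P114.H172
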