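import Vale.Agent.P114.H172.Defs
import Vale.Agent.P114.H408.Sets

set_option linter.all false

open scoped Classical ENNReal

open MeasureTheory Set

noncomputable section

namespace Vale.Agent.P114.H172

open Vale.Agent.P114

variable {Λ : Type} {V : Type} [NormedAddCommGroup V] [NormedSpace ℝ V]

/-- slope of a word -/
def slope (r : Λ → ℝ) : List Λ → ℝ
  | [] => 1
  | i :: w => r i * slope r w

/-- translation part of a word -/
def trans (r : Λ → ℝ) (t : Λ → V) : List Λ → V
  | [] => 0
  | i :: w => r i • trans r t w + t i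

lemma homWord_apply (r : Λ → ℝ) (t : Λ → V) (w : List Λ) (x : V) :
    homWord r t w x = slope r w • x + trans r t w := by
  induction w with
  | nil => simp [homWord, slope, trans]
  | cons i w ih =>
    change homMap r t i (homWord r t w x) = (r i * slope r w) • x + (r i • trans r t w + t i)
    rw [ih, homMap, smul_add, smul_smul, add_assoc]

lemma wordMap_apply (r t : Λ → ℝ) (w : List Λ) (x : ℝ) :
    wordMap r t w x = slope r w * x + trans r t w := by
  induction w with
  | nil => simp [wordMap, slope, trans]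
  | cons i w ih =>
    change simMap r t i (wordMap r t w x) = (r i * slope r w) * x + (r i • trans r t w + t i)
    rw [ih, simMap, smul_eq_mul]
    ring

lemma trans_comp (r : Λ → ℝ) (t : Λ → V) (u : V →L[ℝ] ℝ) (w : List Λ) :
    trans r (fun i => u (t i)) w = u (trans r t w) := by
  induction w with
  | nil => simp [trans]
  | cons i w ih =>
    change r i • trans r (fun i => u (t i)) w + u (t i) = u (r i • trans r t w + t i)
    rw [ih, map_add, map_smul]

lemma homWord_eq_iff (r : Λ → ℝ) (t : Λ → V) (w v : List Λ)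
    (h : homWord r t w = homWord r t v) : trans r t w = trans r t v := by
  have h1 := congrFun h 0
  simpa only [homWord_apply, smul_zero, zero_add] using h1

/-- equality of composed maps -/
lemma homWord_eq [Nontrivial V] (r : Λ → ℝ) (t : Λ → V) (w v : List Λ) :
    homWord r t w = homWord r t v ↔ slope r w = slope r v ∧ trans r t w = trans r t v := by
  constructor
  · intro h
    have h2 := homWord_eq_iff r t w v h
    refine ⟨?_, h2⟩
    obtain ⟨x, hx⟩ := exists_ne (0 : V)
    have h1 := congrFun h x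
    rw [homWord_apply, homWord_apply, h2] at h1
    have h3 := add_right_cancel h1
    rw [← sub_eq_zero, ← sub_smul, smul_eq_zero] at h3
    rcases h3 with h3 | h3
    · exact sub_eq_zero.1 h3
    · exact absurd h3 hx
  · rintro ⟨h1, h2⟩
    funext x
    rw [homWord_apply, homWord_apply, h1, h2]

lemma wordMap_eq (r t : Λ → ℝ) (w v : List Λ) :
    wordMap r t w = wordMap r t v ↔ slope r w = slope r v ∧ trans r t w = trans r t v := by
  constructor
  · intro h
    have h0 := congrFun h 0
    have h1 := congrFun h 1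
    rw [wordMap_apply, wordMap_apply] at h0 h1
    have h2 : trans r t w = trans r t v := by linarith
    refine ⟨?_, h2⟩
    linarith
  · rintro ⟨h1, h2⟩
    funext x
    rw [wordMap_apply, wordMap_apply, h1, h2]

/-- `u` creates no new exact overlap -/
def NoNew (r : Λ → ℝ) (t : Λ → V) (u : V →L[ℝ] ℝ) : Prop :=
  ∀ (n : ℕ) (w v : Fin n → Λ),
    wordMap r (fun i => u (t i)) (List.ofFn w) = wordMap r (fun i => u (t i)) (List.ofFn v) →
      homWord r t (List.ofFn w) = homWord r t (List.ofFn v)

lemma wordMap_of_homWord [Nontrivial V] (r : Λ → ℝ) (t : Λ → V) (u : V →L[ℝ] ℝ) (w v : List Λ)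
    (h : homWord r t w = homWord r t v) :
    wordMap r (fun i => u (t i)) w = wordMap r (fun i => u (t i)) v := by
  rw [homWord_eq] at h
  rw [wordMap_eq]
  exact ⟨h.1, by rw [trans_comp, trans_comp, h.2]⟩

/-- entropy as a sum over words -/
lemma entropy_words {W G : Type} [Fintype W] (f : W → G) (q : W → ℝ) :
    ∑ g ∈ Finset.univ.image f, -((∑ w, if f w = g then q w else 0) *
      Real.logb 2 (∑ w, if f w = g then q w else 0)) =
    ∑ w, -(q w * Real.logb 2 (∑ v, if f v = f w then q v else 0)) := by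
  have h1 : ∀ g ∈ Finset.univ.image f, -((∑ w, if f w = g then q w else 0) *
      Real.logb 2 (∑ w, if f w = g then q w else 0)) =
      ∑ w ∈ Finset.univ.filter (fun w => f w = g),
        -(q w * Real.logb 2 (∑ v, if f v = f w then q v else 0)) := by
    intro g _
    have h2 : ∑ w ∈ Finset.univ.filter (fun w => f w = g),
        -(q w * Real.logb 2 (∑ v, if f v = f w then q v else 0)) =
        ∑ w ∈ Finset.univ.filter (fun w => f w = g),
        -(q w * Real.logb 2 (∑ v, if f v = g then q v else 0)) := by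
      refine Finset.sum_congr rfl fun w hw => ?_
      rw [Finset.mem_filter] at hw
      rw [hw.2]
    rw [h2, Finset.sum_neg_distrib, ← Finset.sum_mul, ← Finset.sum_filter]
  rw [Finset.sum_congr rfl h1]
  exact Finset.sum_fiberwise_of_maps_to (fun w _ => Finset.mem_image_of_mem f (Finset.mem_univ w)) _

lemma entropy_congr {W G G' : Type} [Fintype W] (f : W → G) (f' : W → G') (q : W → ℝ)
    (h : ∀ w v, f w = f v ↔ f' w = f' v) :
    ∑ g ∈ Finset.univ.image f, -((∑ w, if f w = g then q w else 0) *
      Real.logb 2 (∑ w, if f w = g then q w else 0)) =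
    ∑ g ∈ Finset.univ.image f', -((∑ w, if f' w = g then q w else 0) *
      Real.logb 2 (∑ w, if f' w = g then q w else 0)) := by
  rw [entropy_words, entropy_words]
  refine Finset.sum_congr rfl fun w _ => ?_
  have h1 : ∑ v, (if f v = f w then q v else 0) = ∑ v, (if f' v = f' w then q v else 0) :=
    Finset.sum_congr rfl fun v _ => if_congr (h v w) rfl rfl
  rw [h1]

lemma rate_eq [Fintype Λ] [Nontrivial V] (r : Λ → ℝ) (t : Λ → V) (p : Λ → ℝ) (u : V →L[ℝ] ℝ)
    (hu : NoNew r t u) : hRW r (fun i => u (t i)) p = homRate r t p := by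
  unfold hRW homRate
  congr 1
  funext n
  congr 1
  exact entropy_congr _ _ _ fun w v => ⟨hu _ w v, wordMap_of_homWord r t u _ _⟩

/-- the projection of a self-similar measure -/
lemma map_isSelfSimilar [Fintype Λ] [MeasurableSpace V] [BorelSpace V] (r : Λ → ℝ) (t : Λ → V)
    (p : Λ → ℝ) (μ : Measure V) (hμ : IsHomMeasure r t p μ) (u : V →L[ℝ] ℝ) :
    IsSelfSimilar r (fun i => u (t i)) p (μ.map u) := by
  have hprob := hμ.prob
  have mu' : Measurable u := u.continuous.measurable
  have mh : ∀ i, Measurable (homMap r t i) := fun i => by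
    have : Continuous (homMap r t i) := by unfold homMap; fun_prop
    exact this.measurable
  have ms : ∀ i, Measurable (simMap r (fun i => u (t i)) i) := fun i => by
    unfold simMap; fun_prop
  refine ⟨Measure.isProbabilityMeasure_map mu'.aemeasurable, ?_⟩
  conv_lhs => rw [hμ.eq]
  rw [← Measure.mapₗ_apply_of_measurable mu', map_sum]
  refine Finset.sum_congr rfl fun i _ => ?_
  rw [Measure.mapₗ_apply_of_measurable mu', Measure.map_smul, Measure.map_map mu' (mh i),
    Measure.map_map (ms i) mu']
  congr 2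
  funext x
  simp [homMap, simMap]

/-- the projection of a self-similar set -/
lemma image_isAttractor (r : Λ → ℝ) (t : Λ → V) (K : Set V) (hK : IsHomSet r t K)
    (u : V →L[ℝ] ℝ) : IsAttractor r (fun i => u (t i)) (u '' K) := by
  refine ⟨hK.nonempty.image _, hK.compact.image u.continuous, ?_⟩
  conv_lhs => rw [hK.eq]
  rw [image_iUnion]
  refine iUnion_congr fun i => ?_
  rw [image_image, image_image]
  refine image_congr fun x _ => ?_
  simp [homMap, simMap]

/-- the exceptional functionals -/
def bad [Fintype Λ] (r : Λ → ℝ) (t : Λ → V) : Set (Submodule ℝ (V →L[ℝ] ℝ)) :=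
  ⋃ (n : ℕ), ⋃ (w : Fin n → Λ), ⋃ (v : Fin n → Λ),
    {W | W = LinearMap.ker (ContinuousLinearMap.apply ℝ ℝ
      (trans r t (List.ofFn w) - trans r t (List.ofFn v)) : (V →L[ℝ] ℝ) →ₗ[ℝ] ℝ) ∧ W ≠ ⊤}

lemma bad_countable [Fintype Λ] (r : Λ → ℝ) (t : Λ → V) : (bad r t).Countable := by
  refine countable_iUnion fun n => countable_iUnion fun w => countable_iUnion fun v => ?_
  exact (countable_singleton _).mono fun W hW => hW.1

lemma bad_ne_top [Fintype Λ] (r : Λ → ℝ) (t : Λ → V) : ∀ W ∈ bad r t, W ≠ ⊤ := by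
  intro W hW
  simp only [bad, mem_iUnion] at hW
  obtain ⟨n, w, v, h⟩ := hW
  exact h.2

lemma noNew_of_not_bad [Fintype Λ] [Nontrivial V] [FiniteDimensional ℝ V] (r : Λ → ℝ) (t : Λ → V)
    (u : V →L[ℝ] ℝ) (hu : ∀ W ∈ bad r t, u ∉ W) : NoNew r t u := by
  intro n w v h
  rw [wordMap_eq] at h
  rw [homWord_eq]
  refine ⟨h.1, ?_⟩
  have h2 := h.2
  rw [trans_comp, trans_comp] at h2
  by_contra hne
  set τ : V := trans r t (List.ofFn w) - trans r t (List.ofFn v) with hτ
  have hτ0 : τ ≠ 0 := sub_ne_zero.2 hne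
  have hker : u ∈ LinearMap.ker (ContinuousLinearMap.apply ℝ ℝ τ : (V →L[ℝ] ℝ) →ₗ[ℝ] ℝ) := by
    rw [LinearMap.mem_ker]
    show u τ = 0
    rw [hτ, map_sub, h2, sub_self]
  refine hu _ ?_ hker
  simp only [bad, mem_iUnion]
  refine ⟨n, w, v, rfl, ?_⟩
  intro htop
  obtain ⟨f, -, hf⟩ := exists_dual_vector ℝ τ (norm_ne_zero_iff.2 hτ0)
  have h3 : f ∈ LinearMap.ker (ContinuousLinearMap.apply ℝ ℝ τ : (V →L[ℝ] ℝ) →ₗ[ℝ] ℝ) := by
    rw [htop]; trivial
  rw [LinearMap.mem_ker] at h3
  have h4 : f τ = 0 := h3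
  rw [h4] at hf
  have h5 : ‖τ‖ = 0 := by exact_mod_cast hf.symm
  exact hτ0 (norm_eq_zero.1 h5)

end Vale.Agent.P114.H172
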